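import Vale.Agent.P039.Bn.L2.Defs

/-! P039-B, STEP 1: the matching `M = {(b, m b)}` obtained from a good `g` has an acyclic dual.
A directed cycle of the dual is an alternating cycle of `J` for the pair `(h, g)` (`h` the third
index), so that the count of STEP 2 (`T2`) contradicts the count of the whites inside. -/

namespace Vale.Agent.P039.Bn

namespace PMap

variable {B W V : Type} (M : PMap B W V)

theorem three_cases783 {f g m : Fin 3} (h1 : f ≠ g) (h2 : f ≠ m) (h3 : g ≠ m) :
    (g = f + 1 ∧ m = f + 2) ∨ (g = f + 2 ∧ m = f + 1) := by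
  revert f g m; decide

/-- local rule on the cycle -/
theorem local_on783 {p : Fin 3 → Prop} [DecidablePred p] {f g m : Fin 3} {s : ℚ}
    (hs : s = 1 ∨ s = -1) (h1 : f ≠ g) (h2 : f ≠ m) (h3 : g ≠ m)
    (h : ∀ j, ((if j = f then (1 : ℚ) else 0) - (if j = g then 1 else 0)) =
      s * ((if p (j + 1) then 1 else 0) - (if p (j + 2) then 1 else 0))) :
    (p g ↔ p f) ∧ (p m ↔ ¬ p f) := by
  have hf := h f
  have hm := h m
  rcases three_cases783 h1 h2 h3 with ⟨rfl, rfl⟩ | ⟨rfl, rfl⟩
  · rw [f21, f22] at hm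
    simp only [h2.symm, h3.symm, if_false, h1, if_true] at hf hm
    by_cases a : p f <;> by_cases b : p (f + 1) <;> by_cases c : p (f + 2) <;>
      rcases hs with rfl | rfl <;> simp [a, b, c] at hf hm ⊢
  · rw [f11, f12] at hm
    simp only [h2.symm, h3.symm, if_false, h1, if_true] at hf hm
    by_cases a : p f <;> by_cases b : p (f + 1) <;> by_cases c : p (f + 2) <;>
      rcases hs with rfl | rfl <;> simp [a, b, c] at hf hm ⊢

/-- local rule off the cycle -/
theorem local_off783 {p : Fin 3 → Prop} [DecidablePred p] {s : ℚ}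
    (hs : s = 1 ∨ s = -1)
    (h : ∀ j : Fin 3, (0 : ℚ) =
      s * ((if p (j + 1) then 1 else 0) - (if p (j + 2) then 1 else 0))) (i j : Fin 3) :
    p i ↔ p j := by
  have h0 : p 1 ↔ p 2 := by
    have := h 0
    simp only [zero_add] at this
    by_cases a : p 1 <;> by_cases b : p 2 <;> rcases hs with rfl | rfl <;>
      simp [a, b] at this ⊢ 
  have h1 : p 2 ↔ p 0 := by
    have := h 1
    have e1 : (1 : Fin 3) + 1 = 2 := rfl
    have e2 : (1 : Fin 3) + 2 = 0 := rfl
    rw [e1, e2] at this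
    by_cases a : p 2 <;> by_cases b : p 0 <;> rcases hs with rfl | rfl <;>
      simp [a, b] at this ⊢ 
  fin_cases i <;> fin_cases j <;> simp <;> tauto

/-- For a bijection `b ↦ e (m b) b` with `m b ≠ g b` off `b0`, the faces flow to the roots: there is
no alternating cycle for the pair (third index, `g`). -/
theorem no_dual_cycle [Fintype B] [Fintype W] [Fintype V] [DecidableEq V] [DecidableEq B]
    [DecidableEq W] (h1 : M.T1) (h2 : M.T2) (hs : M.Sph) {b0 : B} {g m h : B → Fin 3}
    (hg : M.IsMatch b0 g) (hm : Function.Bijective fun b => M.e (m b) b)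
    (hgm : ∀ b, b ≠ b0 → g b ≠ m b) (hhg : ∀ b, b ≠ b0 → h b ≠ g b)
    (hhm : ∀ b, b ≠ b0 → h b ≠ m b) {S : Finset B} {nx : B → B} (hb0 : b0 ∉ S)
    (hA : M.IsAlt h g S nx) : False := by
  obtain ⟨s, I, hs1, hI, hI0, hcyc⟩ := h1 hs h g S nx b0 hA hb0
  have hk := h2 hs h g S nx b0 hA hb0 hg s I hs1 hI hI0 hcyc
  -- local rules
  have hon : ∀ b ∈ S, (M.e (g b) b ∈ I ↔ M.e (h b) b ∈ I) ∧
      (M.e (m b) b ∈ I ↔ ¬ M.e (h b) b ∈ I) := by
    intro b hb
    have hbb : b ≠ b0 := fun e => hb0 (e ▸ hb)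
    refine local_on783 (p := fun j => M.e j b ∈ I) hs1 (hhg b hbb) (hhm b hbb) (hgm b hbb) ?_
    intro j
    have := hcyc b j
    rw [cyc, if_pos hb] at this
    exact this
  have hoff : ∀ b, b ∉ S → ∀ i j, (M.e i b ∈ I ↔ M.e j b ∈ I) := by
    intro b hb i j
    refine local_off783 (p := fun j => M.e j b ∈ I) hs1 ?_ i j
    intro j
    have := hcyc b j
    rw [cyc, if_neg hb] at this
    exact this
  -- counting
  have hcard1 : (I.card : ℤ) = ∑ b : B, if M.e (m b) b ∈ I then (1 : ℤ) else 0 := by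
    have e1 : ∑ b : B, (if M.e (m b) b ∈ I then (1 : ℤ) else 0) =
        ∑ w : W, if w ∈ I then (1 : ℤ) else 0 :=
      Function.Bijective.sum_comp hm (fun w => if w ∈ I then (1 : ℤ) else 0)
    rw [e1]; simp
  have hcard2 : ∀ i : Fin 3, (I.card : ℤ) = ∑ b : B, if M.e i b ∈ I then (1 : ℤ) else 0 := by
    intro i
    have e1 : ∑ b : B, (if M.e i b ∈ I then (1 : ℤ) else 0) =
        ∑ w : W, if w ∈ I then (1 : ℤ) else 0 :=
      Function.Bijective.sum_comp (M.e i).bijective (fun w => if w ∈ I then (1 : ℤ) else 0)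
    rw [e1]; simp
  have hsum3 : 3 * (I.card : ℤ) = ∑ b : B, ∑ i : Fin 3, if M.e i b ∈ I then (1 : ℤ) else 0 := by
    rw [Finset.sum_comm]
    rw [Fin.sum_univ_three, ← hcard2 0, ← hcard2 1, ← hcard2 2]; ring
  have hb3 : ∀ b : B, (∑ i : Fin 3, if M.e i b ∈ I then (1 : ℤ) else 0) =
      3 * (if M.e (m b) b ∈ I then (1 : ℤ) else 0) +
        (if b ∈ S then (if M.e (h b) b ∈ I then 4 else 0) - 2 else 0) := by
    intro b
    by_cases hb : b ∈ S
    · have hbb : b ≠ b0 := fun e => hb0 (e ▸ hb)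
      obtain ⟨a1, a2⟩ := hon b hb
      rw [if_pos hb]
      have e3 : (∑ i : Fin 3, if M.e i b ∈ I then (1 : ℤ) else 0) =
          (if M.e (h b) b ∈ I then (1 : ℤ) else 0) + (if M.e (g b) b ∈ I then (1 : ℤ) else 0) +
            (if M.e (m b) b ∈ I then (1 : ℤ) else 0) := by
        have key : ∀ (F : Fin 3 → ℤ) (x y z : Fin 3), x ≠ y → x ≠ z → y ≠ z →
            ∑ i, F i = F x + F y + F z := by
          intro F x y z hxy hxz hyz
          rw [Fin.sum_univ_three]
          fin_cases x <;> fin_cases y <;> fin_cases z <;> simp at hxy hxz hyz ⊢ <;> ring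
        exact key (fun i => if M.e i b ∈ I then (1 : ℤ) else 0) _ _ _ (hhg b hbb) (hhm b hbb)
          (hgm b hbb)
      rw [e3]
      by_cases c : M.e (h b) b ∈ I
      · have c1 := a1.2 c
        have c2 : ¬ M.e (m b) b ∈ I := fun x => a2.1 x c
        simp [c, c1, c2]
      · have c1 : ¬ M.e (g b) b ∈ I := fun x => c (a1.1 x)
        have c2 := a2.2 c
        simp [c, c1, c2]
    · rw [if_neg hb]
      have := hoff b hb
      rw [Fin.sum_univ_three]
      by_cases c : M.e (m b) b ∈ I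
      · rw [if_pos c, if_pos ((this _ _).2 c), if_pos ((this _ _).2 c), if_pos ((this _ _).2 c)]
        norm_num
      · rw [if_neg c, if_neg (fun x => c ((this _ _).1 x)), if_neg (fun x => c ((this _ _).1 x)),
          if_neg (fun x => c ((this _ _).1 x))]
        norm_num
  have hfin : 3 * (I.card : ℤ) = 3 * I.card +
      (4 * ((S.filter fun b => M.e (h b) b ∈ I).card : ℤ) - 2 * (S.card : ℤ)) := by
    have e1 := hsum3
    rw [Finset.sum_congr rfl (fun b _ => hb3 b), Finset.sum_add_distrib, ← Finset.mul_sum,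
      ← hcard1] at e1
    rw [← Finset.sum_filter] at e1
    have e2 : (Finset.univ.filter fun b => b ∈ S) = S := by ext; simp
    rw [e2, Finset.sum_sub_distrib, Finset.sum_const, ← Finset.sum_filter, Finset.sum_const] at e1
    simp only [nsmul_eq_mul] at e1
    linarith
  omega

end PMap

end Vale.Agent.P039.Bn
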